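import Mathlib

/-! First and second derivative tests for oscillatory integrals. -/

set_option autoImplicit false
open Set Complex Real intervalIntegral MeasureTheory

namespace Crest.Agent.Osc

theorem contOn_of_deriv {E : Type*} [NormedAddCommGroup E] [NormedSpace ℝ E] {a b : ℝ}
    {f f1 : ℝ → E} (h : ∀ x ∈ Icc a b, HasDerivAt f (f1 x) x) : ContinuousOn f (Icc a b) :=
  fun x hx => (h x hx).continuousAt.continuousWithinAt

theorem contOn_cexp {a b : ℝ} {h : ℝ → ℝ} (hc : ContinuousOn h (Icc a b)) :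
    ContinuousOn (fun x => cexp (h x * I)) (Icc a b) :=
  ((continuous_ofReal.comp_continuousOn hc).mul continuousOn_const).cexp

theorem hasDerivAt_cexp {h : ℝ → ℝ} {h1 x : ℝ} (hh : HasDerivAt h h1 x) :
    HasDerivAt (fun x => cexp (h x * I)) (cexp (h x * I) * (h1 * I)) x :=
  (hh.ofReal_comp.mul_const I).cexp

theorem ii_of_contOn {E : Type*} [NormedAddCommGroup E] {a b : ℝ} (hab : a ≤ b) {f : ℝ → E}
    (hc : ContinuousOn f (Icc a b)) : IntervalIntegrable f volume a b := by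
  apply ContinuousOn.intervalIntegrable
  rwa [uIcc_of_le hab]

/-- one integration by parts -/
theorem ibp {a b : ℝ} {h h1 h2 : ℝ → ℝ} {g g1 : ℝ → ℂ} (hab : a ≤ b)
    (hh : ∀ x ∈ Icc a b, HasDerivAt h (h1 x) x) (hh1 : ∀ x ∈ Icc a b, HasDerivAt h1 (h2 x) x)
    (hc : ContinuousOn h2 (Icc a b)) (hne : ∀ x ∈ Icc a b, h1 x ≠ 0)
    (hg : ∀ x ∈ Icc a b, HasDerivAt g (g1 x) x) (hgc : ContinuousOn g1 (Icc a b)) :
    ∫ x in a..b, g x * cexp (h x * I) =
      (g b * cexp (h b * I) / (h1 b * I) - g a * cexp (h a * I) / (h1 a * I)) -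
        ∫ x in a..b, (g1 x / (h1 x * I) - g x * h2 x / ((h1 x) ^ 2 * I)) * cexp (h x * I) := by
  have c0 := contOn_of_deriv hh
  have c1 := contOn_of_deriv hh1
  have cg := contOn_of_deriv hg
  have ce := contOn_cexp c0
  have c1' : ContinuousOn (fun x => (h1 x : ℂ)) (Icc a b) := continuous_ofReal.comp_continuousOn c1
  have c2' : ContinuousOn (fun x => (h2 x : ℂ)) (Icc a b) := continuous_ofReal.comp_continuousOn hc
  have hne' : ∀ x ∈ Icc a b, (h1 x : ℂ) ≠ 0 := fun x hx => by exact_mod_cast hne x hx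
  have cG : ContinuousOn (fun x => (g1 x / (h1 x * I) - g x * h2 x / ((h1 x) ^ 2 * I)) * cexp (h x * I))
      (Icc a b) := by
    refine ContinuousOn.mul (ContinuousOn.sub ?_ ?_) ce
    · exact hgc.div (c1'.mul continuousOn_const) fun x hx => mul_ne_zero (hne' x hx) I_ne_zero
    · exact (cg.mul c2').div ((c1'.pow 2).mul continuousOn_const)
        fun x hx => mul_ne_zero (pow_ne_zero _ (hne' x hx)) I_ne_zero
  have key : ∫ x in a..b, (g x * cexp (h x * I) +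
      (g1 x / (h1 x * I) - g x * h2 x / ((h1 x) ^ 2 * I)) * cexp (h x * I)) =
      g b * cexp (h b * I) / (h1 b * I) - g a * cexp (h a * I) / (h1 a * I) := by
    apply integral_eq_sub_of_hasDerivAt (f := fun x => g x * cexp (h x * I) / (h1 x * I))
    · intro x hx
      rw [uIcc_of_le hab] at hx
      have e := ((hg x hx).fun_mul (hasDerivAt_cexp (hh x hx))).fun_div
        ((hh1 x hx).ofReal_comp.mul_const I) (mul_ne_zero (hne' x hx) I_ne_zero)
      refine e.congr_deriv ?_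
      have := hne' x hx
      field_simp
      ring
    · exact ii_of_contOn hab ((cg.mul ce).add cG)
  have cge : ContinuousOn (fun x => g x * cexp (h x * I)) (Icc a b) := cg.mul ce
  rw [integral_add (ii_of_contOn hab cge) (ii_of_contOn hab cG)] at key
  rw [← key]; ring

theorem norm_cexp_I (t : ℝ) : ‖cexp (t * I)‖ = 1 := norm_exp_ofReal_mul_I t

theorem first_deriv_core {a b L A V W : ℝ} {h h1 h2 : ℝ → ℝ} {g g1 : ℝ → ℂ} (hab : a ≤ b) (hL : 0 < L)
    (hh : ∀ x ∈ Icc a b, HasDerivAt h (h1 x) x) (hh1 : ∀ x ∈ Icc a b, HasDerivAt h1 (h2 x) x)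
    (hc : ContinuousOn h2 (Icc a b))
    (hlow : ∀ x ∈ Icc a b, L ≤ |h1 x|)
    (hg : ∀ x ∈ Icc a b, HasDerivAt g (g1 x) x) (hgc : ContinuousOn g1 (Icc a b))
    (hA : ∀ x ∈ Icc a b, ‖g x‖ ≤ A) (hV : ∫ x in a..b, ‖g1 x‖ ≤ V)
    (hW : ∫ x in a..b, |h2 x| / (h1 x) ^ 2 ≤ W) :
    ‖∫ x in a..b, g x * cexp (h x * I)‖ ≤ (2 * A + V) / L + A * W := by
  have hne : ∀ x ∈ Icc a b, h1 x ≠ 0 := fun x hx h0 => by
    have := hlow x hx; rw [h0, abs_zero] at this; linarith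
  have hA0 : 0 ≤ A := (norm_nonneg _).trans (hA a ⟨le_rfl, hab⟩)
  have c1 := contOn_of_deriv hh1
  rw [ibp hab hh hh1 hc hne hg hgc]
  have bd : ∀ x ∈ Icc a b, ‖g x * cexp (h x * I) / (h1 x * I)‖ ≤ A / L := by
    intro x hx
    rw [norm_div, norm_mul, norm_mul, norm_cexp_I, norm_I, norm_real, Real.norm_eq_abs, mul_one, mul_one]
    exact div_le_div₀ hA0 (hA x hx) hL (hlow x hx)
  have i1 : IntervalIntegrable (fun x => ‖g1 x‖) volume a b := ii_of_contOn hab hgc.norm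
  have i2 : IntervalIntegrable (fun x => |h2 x| / (h1 x) ^ 2) volume a b :=
    ii_of_contOn hab (hc.abs.div (c1.pow 2) fun x hx => pow_ne_zero _ (hne x hx))
  have b3 : ‖∫ x in a..b, (g1 x / (h1 x * I) - g x * h2 x / ((h1 x) ^ 2 * I)) * cexp (h x * I)‖ ≤
      ∫ x in a..b, (‖g1 x‖ / L + A * (|h2 x| / (h1 x) ^ 2)) := by
    apply norm_integral_le_of_norm_le hab _ ((i1.div_const L).add (i2.const_mul A))
    refine Filter.Eventually.of_forall fun x hx => ?_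
    have hx' : x ∈ Icc a b := Ioc_subset_Icc_self hx
    rw [norm_mul, norm_cexp_I, mul_one]
    refine (norm_sub_le _ _).trans (add_le_add ?_ ?_)
    · rw [norm_div, norm_mul, norm_I, norm_real, Real.norm_eq_abs, mul_one]
      exact div_le_div_of_nonneg_left (norm_nonneg _) hL (hlow x hx')
    · rw [norm_div, norm_mul, norm_mul, norm_I, norm_pow, norm_real, norm_real, Real.norm_eq_abs,
        Real.norm_eq_abs, mul_one, sq_abs, mul_div_assoc]
      exact mul_le_mul_of_nonneg_right (hA x hx') (by positivity)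
  rw [integral_add (i1.div_const L) (i2.const_mul A), intervalIntegral.integral_div,
    intervalIntegral.integral_const_mul] at b3
  have b4 : (∫ x in a..b, ‖g1 x‖) / L ≤ V / L := by gcongr
  have b5 : A * (∫ x in a..b, |h2 x| / (h1 x) ^ 2) ≤ A * W := by gcongr
  have b1 := bd a ⟨le_rfl, hab⟩
  have b2 := bd b ⟨hab, le_rfl⟩
  refine (norm_sub_le _ _).trans ?_
  have b6 := norm_sub_le (g b * cexp (h b * I) / (h1 b * I)) (g a * cexp (h a * I) / (h1 a * I))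
  have : (2 * A + V) / L = A / L + A / L + V / L := by ring
  linarith

/-- **First derivative test** (monotone `h'`). -/
theorem first_deriv_test {a b L A V : ℝ} {h h1 h2 : ℝ → ℝ} {g g1 : ℝ → ℂ} (hab : a ≤ b) (hL : 0 < L)
    (hh : ∀ x ∈ Icc a b, HasDerivAt h (h1 x) x) (hh1 : ∀ x ∈ Icc a b, HasDerivAt h1 (h2 x) x)
    (hc : ContinuousOn h2 (Icc a b))
    (hs : (∀ x ∈ Icc a b, 0 ≤ h2 x) ∨ (∀ x ∈ Icc a b, h2 x ≤ 0))
    (hlow : ∀ x ∈ Icc a b, L ≤ |h1 x|)
    (hg : ∀ x ∈ Icc a b, HasDerivAt g (g1 x) x) (hgc : ContinuousOn g1 (Icc a b))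
    (hA : ∀ x ∈ Icc a b, ‖g x‖ ≤ A) (hV : ∫ x in a..b, ‖g1 x‖ ≤ V) :
    ‖∫ x in a..b, g x * cexp (h x * I)‖ ≤ (4 * A + V) / L := by
  have hne : ∀ x ∈ Icc a b, h1 x ≠ 0 := fun x hx h0 => by
    have := hlow x hx; rw [h0, abs_zero] at this; linarith
  have c1 := contOn_of_deriv hh1
  have key : ∫ x in a..b, h2 x / (h1 x) ^ 2 = -(h1 b)⁻¹ - -(h1 a)⁻¹ := by
    apply integral_eq_sub_of_hasDerivAt (f := fun x => -(h1 x)⁻¹)
    · intro x hx
      rw [uIcc_of_le hab] at hx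
      refine ((hh1 x hx).fun_inv (hne x hx)).fun_neg.congr_deriv ?_
      ring
    · exact ii_of_contOn hab (hc.div (c1.pow 2) fun x hx => pow_ne_zero _ (hne x hx))
  have bd : ∀ x ∈ Icc a b, |(h1 x)⁻¹| ≤ 1 / L := by
    intro x hx
    rw [abs_inv, ← one_div]
    exact one_div_le_one_div_of_le hL (hlow x hx)
  have ba := abs_le.1 (bd a ⟨le_rfl, hab⟩)
  have bb := abs_le.1 (bd b ⟨hab, le_rfl⟩)
  have hW : ∫ x in a..b, |h2 x| / (h1 x) ^ 2 ≤ 2 / L := by
    have e2 : 2 / L = 1 / L + 1 / L := by ring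
    rcases hs with hs | hs
    · have : ∫ x in a..b, |h2 x| / (h1 x) ^ 2 = ∫ x in a..b, h2 x / (h1 x) ^ 2 := by
        apply integral_congr
        intro x hx
        rw [uIcc_of_le hab] at hx
        simp only [abs_of_nonneg (hs x hx)]
      rw [this, key]; linarith [ba.1, ba.2, bb.1, bb.2]
    · have : ∫ x in a..b, |h2 x| / (h1 x) ^ 2 = ∫ x in a..b, -(h2 x / (h1 x) ^ 2) := by
        apply integral_congr
        intro x hx
        rw [uIcc_of_le hab] at hx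
        simp only [abs_of_nonpos (hs x hx), neg_div]
      rw [this, intervalIntegral.integral_neg, key]; linarith [ba.1, ba.2, bb.1, bb.2]
  refine (first_deriv_core hab hL hh hh1 hc hlow hg hgc hA hV hW).trans (le_of_eq ?_)
  ring

/-- First derivative test without monotonicity, with a bound on `h''`. -/
theorem first_deriv_test' {a b L A V M : ℝ} {h h1 h2 : ℝ → ℝ} {g g1 : ℝ → ℂ} (hab : a ≤ b) (hL : 0 < L)
    (hh : ∀ x ∈ Icc a b, HasDerivAt h (h1 x) x) (hh1 : ∀ x ∈ Icc a b, HasDerivAt h1 (h2 x) x)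
    (hc : ContinuousOn h2 (Icc a b))
    (hM : ∀ x ∈ Icc a b, |h2 x| ≤ M)
    (hlow : ∀ x ∈ Icc a b, L ≤ |h1 x|)
    (hg : ∀ x ∈ Icc a b, HasDerivAt g (g1 x) x) (hgc : ContinuousOn g1 (Icc a b))
    (hA : ∀ x ∈ Icc a b, ‖g x‖ ≤ A) (hV : ∫ x in a..b, ‖g1 x‖ ≤ V) :
    ‖∫ x in a..b, g x * cexp (h x * I)‖ ≤ (2 * A + V) / L + A * ((b - a) * (M / L ^ 2)) := by
  have hne : ∀ x ∈ Icc a b, h1 x ≠ 0 := fun x hx h0 => by
    have := hlow x hx; rw [h0, abs_zero] at this; linarith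
  have c1 := contOn_of_deriv hh1
  refine first_deriv_core hab hL hh hh1 hc hlow hg hgc hA hV ?_
  have hM0 : 0 ≤ M := (abs_nonneg _).trans (hM a ⟨le_rfl, hab⟩)
  calc ∫ x in a..b, |h2 x| / (h1 x) ^ 2 ≤ ∫ _ in a..b, M / L ^ 2 := by
        apply integral_mono_on hab
          (ii_of_contOn hab (hc.abs.div (c1.pow 2) fun x hx => pow_ne_zero _ (hne x hx)))
          intervalIntegrable_const
        intro x hx
        have : L ^ 2 ≤ (h1 x) ^ 2 := by
          rw [← sq_abs (h1 x)]; exact pow_le_pow_left₀ hL.le (hlow x hx) 2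
        exact div_le_div₀ hM0 (hM x hx) (by positivity) this
    _ = (b - a) * (M / L ^ 2) := by simp only [intervalIntegral.integral_const, smul_eq_mul]

theorem split_level {a b t : ℝ} (hab : a ≤ b) {f : ℝ → ℝ} (hc : ContinuousOn f (Icc a b))
    (hm : MonotoneOn f (Icc a b)) :
    ∃ c ∈ Icc a b, (c = a ∨ ∀ x ∈ Icc a c, f x ≤ t) ∧ (c = b ∨ ∀ x ∈ Icc c b, t ≤ f x) := by
  by_cases h1 : t ≤ f a
  · exact ⟨a, ⟨le_rfl, hab⟩, Or.inl rfl,
      Or.inr fun x hx => h1.trans (hm ⟨le_rfl, hab⟩ hx hx.1)⟩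
  by_cases h2 : f b ≤ t
  · exact ⟨b, ⟨hab, le_rfl⟩, Or.inr fun x hx => (hm hx ⟨hab, le_rfl⟩ hx.2).trans h2, Or.inl rfl⟩
  push Not at h1 h2
  obtain ⟨c, hc', hct⟩ := intermediate_value_Icc hab hc ⟨h1.le, h2.le⟩
  refine ⟨c, hc', Or.inr fun x hx => ?_, Or.inr fun x hx => ?_⟩
  · rw [← hct]; exact hm ⟨hx.1, hx.2.trans hc'.2⟩ hc' hx.2
  · rw [← hct]; exact hm hc' ⟨hc'.1.trans hx.1, hx.2⟩ hx.1

theorem integral_norm_sub_le {a b c d V : ℝ} {g1 : ℝ → ℂ} (hac : a ≤ c) (hcd : c ≤ d) (hdb : d ≤ b)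
    (hgc : ContinuousOn g1 (Icc a b)) (hV : ∫ x in a..b, ‖g1 x‖ ≤ V) :
    ∫ x in c..d, ‖g1 x‖ ≤ V := by
  refine le_trans ?_ hV
  apply integral_mono_interval hac hcd hdb
  · exact Filter.Eventually.of_forall fun x => norm_nonneg _
  · exact ii_of_contOn (hac.trans (hcd.trans hdb)) hgc.norm

/-- growth from a lower bound on the derivative -/
theorem mul_sub_le_of_deriv {a b L : ℝ} {f f1 : ℝ → ℝ}
    (hf : ∀ x ∈ Icc a b, HasDerivAt f (f1 x) x) (hL : ∀ x ∈ Icc a b, L ≤ f1 x)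
    {x y : ℝ} (hx : x ∈ Icc a b) (hy : y ∈ Icc a b) (hxy : x ≤ y) : L * (y - x) ≤ f y - f x := by
  refine (convex_Icc a b).mul_sub_le_image_sub_of_le_deriv (contOn_of_deriv hf) ?_ ?_ x hx y hy hxy
  · intro z hz
    exact (hf z (interior_subset hz)).differentiableAt.differentiableWithinAt
  · intro z hz
    rw [(hf z (interior_subset hz)).deriv]
    exact hL z (interior_subset hz)

/-- **Second derivative test**. -/
theorem second_deriv_test {a b L A V : ℝ} {h h1 h2 : ℝ → ℝ} {g g1 : ℝ → ℂ} (hab : a ≤ b) (hL : 0 < L)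
    (hh : ∀ x ∈ Icc a b, HasDerivAt h (h1 x) x) (hh1 : ∀ x ∈ Icc a b, HasDerivAt h1 (h2 x) x)
    (hc : ContinuousOn h2 (Icc a b))
    (hs : (∀ x ∈ Icc a b, L ≤ h2 x) ∨ (∀ x ∈ Icc a b, h2 x ≤ -L))
    (hg : ∀ x ∈ Icc a b, HasDerivAt g (g1 x) x) (hgc : ContinuousOn g1 (Icc a b))
    (hA : ∀ x ∈ Icc a b, ‖g x‖ ≤ A) (hV : ∫ x in a..b, ‖g1 x‖ ≤ V) :
    ‖∫ x in a..b, g x * cexp (h x * I)‖ ≤ (10 * A + 2 * V) / √L := by
  obtain ⟨σ, hσ, hσ2⟩ : ∃ σ : ℝ, |σ| = 1 ∧ ∀ x ∈ Icc a b, L ≤ σ * h2 x := by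
    rcases hs with hs | hs
    · exact ⟨1, abs_one, fun x hx => by simpa using hs x hx⟩
    · exact ⟨-1, by simp, fun x hx => by linarith [hs x hx]⟩
  have hs' : (∀ x ∈ Icc a b, 0 ≤ h2 x) ∨ (∀ x ∈ Icc a b, h2 x ≤ 0) := by
    rcases hs with hs | hs
    · exact Or.inl fun x hx => by linarith [hs x hx]
    · exact Or.inr fun x hx => by linarith [hs x hx]
  set s := √L with hs_def
  have hs0 : 0 < s := Real.sqrt_pos.2 hL
  have hss : s * s = L := Real.mul_self_sqrt hL.le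
  have hA0 : 0 ≤ A := (norm_nonneg _).trans (hA a ⟨le_rfl, hab⟩)
  have hV0 : 0 ≤ V := le_trans (integral_nonneg hab fun x _ => norm_nonneg _) hV
  have hf : ∀ x ∈ Icc a b, HasDerivAt (fun x => σ * h1 x) (σ * h2 x) x :=
    fun x hx => (hh1 x hx).const_mul σ
  have grow := fun x y hx hy hxy => mul_sub_le_of_deriv hf hσ2 (x := x) (y := y) hx hy hxy
  have hm : MonotoneOn (fun x => σ * h1 x) (Icc a b) := by
    intro x hx y hy hxy
    have := grow x y hx hy hxy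
    have : 0 ≤ L * (y - x) := mul_nonneg hL.le (by linarith)
    show σ * h1 x ≤ σ * h1 y
    linarith
  have habs : ∀ x, |σ * h1 x| = |h1 x| := fun x => by rw [abs_mul, hσ, one_mul]
  obtain ⟨c, hc1, hc2, hc3⟩ := split_level (t := -s) hab (contOn_of_deriv hf) hm
  have sub2 : Icc c b ⊆ Icc a b := Icc_subset_Icc_left hc1.1
  obtain ⟨d, hd1, hd2, hd3⟩ := split_level (t := s) hc1.2 ((contOn_of_deriv hf).mono sub2) (hm.mono sub2)
  have cF : ContinuousOn (fun x => g x * cexp (h x * I)) (Icc a b) :=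
    (contOn_of_deriv hg).mul (contOn_cexp (contOn_of_deriv hh))
  -- a piece where `|h'| ≥ s`
  have piece : ∀ u v, a ≤ u → u ≤ v → v ≤ b → (u = v ∨ ∀ x ∈ Icc u v, s ≤ |h1 x|) →
      ‖∫ x in u..v, g x * cexp (h x * I)‖ ≤ (4 * A + V) / s := by
    intro u v hu huv hv H
    rcases H with H | H
    · subst H; simp; positivity
    · have sub : Icc u v ⊆ Icc a b := Icc_subset_Icc hu hv
      refine first_deriv_test huv hs0 (fun x hx => hh x (sub hx)) (fun x hx => hh1 x (sub hx))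
        (hc.mono sub) ?_ H (fun x hx => hg x (sub hx)) (hgc.mono sub) (fun x hx => hA x (sub hx))
        (integral_norm_sub_le hu huv hv hgc hV)
      exact hs'.imp (fun H x hx => H x (sub hx)) (fun H x hx => H x (sub hx))
  have p1 := piece a c le_rfl hc1.1 hc1.2 (by
    rcases hc2 with H | H
    · exact Or.inl H.symm
    · refine Or.inr fun x hx => ?_
      rw [← habs]; have := H x hx
      exact le_abs.2 (Or.inr (by linarith)))
  have p3 := piece d b (hc1.1.trans hd1.1) hd1.2 le_rfl (by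
    rcases hd3 with H | H
    · exact Or.inl H
    · refine Or.inr fun x hx => ?_
      rw [← habs]; exact le_abs.2 (Or.inl (H x hx)))
  have hcd : d - c ≤ 2 / s := by
    rcases hc3 with H | H
    · have : d = c := le_antisymm (H ▸ hd1.2) hd1.1
      rw [this, sub_self]; positivity
    · rcases hd2 with H' | H'
      · rw [H', sub_self]; positivity
      · have g1 := grow c d hc1 (sub2 hd1) hd1.1
        have g2 := H c ⟨le_rfl, hc1.2⟩
        have g3 := H' d ⟨hd1.1, le_rfl⟩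
        rw [le_div_iff₀ hs0]
        have : s * ((d - c) * s) ≤ s * 2 := by nlinarith
        exact le_of_mul_le_mul_left this hs0
  have p2 : ‖∫ x in c..d, g x * cexp (h x * I)‖ ≤ A * (2 / s) := by
    have := norm_integral_le_of_norm_le_const (a := c) (b := d) (C := A)
      (f := fun x => g x * cexp (h x * I)) (by
        intro x hx
        rw [uIoc_of_le hd1.1] at hx
        rw [norm_mul, norm_cexp_I, mul_one]
        exact hA x ⟨hc1.1.trans hx.1.le, hx.2.trans hd1.2⟩)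
    refine this.trans ?_
    rw [abs_of_nonneg (by linarith [hd1.1])]
    gcongr
  have i1 := ii_of_contOn hc1.1 (cF.mono (Icc_subset_Icc_right hc1.2))
  have i2 := ii_of_contOn hd1.1 (cF.mono (Icc_subset_Icc hc1.1 hd1.2))
  have i3 := ii_of_contOn hd1.2 (cF.mono (Icc_subset_Icc_left (hc1.1.trans hd1.1)))
  rw [← integral_add_adjacent_intervals (i1.trans i2) i3, ← integral_add_adjacent_intervals i1 i2]
  refine (norm_add₃_le).trans ?_
  have : (10 * A + 2 * V) / s = (4 * A + V) / s + A * (2 / s) + (4 * A + V) / s := by ring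
  linarith

/-- Two integrations by parts on a piece without stationary point. -/
theorem two_ibp {a b L A M : ℝ} {h h1 h2 h3 : ℝ → ℝ} {g g1 g2 : ℝ → ℂ} (hab : a ≤ b) (hL : 0 < L)
    (hh : ∀ x ∈ Icc a b, HasDerivAt h (h1 x) x) (hh1 : ∀ x ∈ Icc a b, HasDerivAt h1 (h2 x) x)
    (hh2 : ∀ x ∈ Icc a b, HasDerivAt h2 (h3 x) x) (hc : ContinuousOn h3 (Icc a b))
    (hlow : ∀ x ∈ Icc a b, L ≤ |h1 x|)
    (hM2 : ∀ x ∈ Icc a b, |h2 x| ≤ M) (hM3 : ∀ x ∈ Icc a b, |h3 x| ≤ M)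
    (hg : ∀ x ∈ Icc a b, HasDerivAt g (g1 x) x) (hg1 : ∀ x ∈ Icc a b, HasDerivAt g1 (g2 x) x)
    (hgc : ContinuousOn g2 (Icc a b))
    (hA0 : ∀ x ∈ Icc a b, ‖g x‖ ≤ A) (hA1 : ∀ x ∈ Icc a b, ‖g1 x‖ ≤ A) (hA2 : ∀ x ∈ Icc a b, ‖g2 x‖ ≤ A) :
    ‖(∫ x in a..b, g x * cexp (h x * I)) -
        (g b * cexp (h b * I) / (h1 b * I) - g a * cexp (h a * I) / (h1 a * I))‖ ≤
      4 * A * (1 + (b - a)) * (1 / L ^ 2 + M / L ^ 3 + M ^ 2 / L ^ 4) := by
  have hne : ∀ x ∈ Icc a b, h1 x ≠ 0 := fun x hx h0 => by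
    have := hlow x hx; rw [h0, abs_zero] at this; linarith
  have hne' : ∀ x ∈ Icc a b, (h1 x : ℂ) ≠ 0 := fun x hx => by exact_mod_cast hne x hx
  have c1 := contOn_of_deriv hh1
  have c2 := contOn_of_deriv hh2
  have cg := contOn_of_deriv hg
  have cg1 := contOn_of_deriv hg1
  have c1' : ContinuousOn (fun x => (h1 x : ℂ)) (Icc a b) := continuous_ofReal.comp_continuousOn c1
  have c2' : ContinuousOn (fun x => (h2 x : ℂ)) (Icc a b) := continuous_ofReal.comp_continuousOn c2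
  have c3' : ContinuousOn (fun x => (h3 x : ℂ)) (Icc a b) := continuous_ofReal.comp_continuousOn hc
  have hA : 0 ≤ A := (norm_nonneg _).trans (hA0 a ⟨le_rfl, hab⟩)
  have hM : 0 ≤ M := (abs_nonneg _).trans (hM2 a ⟨le_rfl, hab⟩)
  rw [ibp hab hh hh1 c2 hne hg cg1, sub_sub_cancel_left, norm_neg]
  set G1 : ℝ → ℂ := fun x => (g2 x / h1 x - 2 * (g1 x * h2 x / (h1 x) ^ 2) - g x * h3 x / (h1 x) ^ 2 +
    2 * (g x * (h2 x) ^ 2 / (h1 x) ^ 3)) / I with hG1
  have dG : ∀ x ∈ Icc a b, HasDerivAt (fun x => g1 x / (h1 x * I) - g x * h2 x / ((h1 x) ^ 2 * I))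
      (G1 x) x := by
    intro x hx
    have e1 := (hg1 x hx).fun_div ((hh1 x hx).ofReal_comp.mul_const I) (mul_ne_zero (hne' x hx) I_ne_zero)
    have e2 := ((hg x hx).fun_mul (hh2 x hx).ofReal_comp).fun_div
      (((hh1 x hx).ofReal_comp.fun_pow 2).mul_const I) (mul_ne_zero (pow_ne_zero _ (hne' x hx)) I_ne_zero)
    refine (e1.fun_sub e2).congr_deriv ?_
    have := hne' x hx
    simp only [hG1]
    field_simp
    ring
  have cG1 : ContinuousOn G1 (Icc a b) := by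
    refine ContinuousOn.div_const (((hgc.div c1' hne').sub (continuousOn_const.mul ?_)).sub ?_ |>.add
      (continuousOn_const.mul ?_)) I
    · exact (cg1.mul c2').div (c1'.pow 2) fun x hx => pow_ne_zero _ (hne' x hx)
    · exact (cg.mul c3').div (c1'.pow 2) fun x hx => pow_ne_zero _ (hne' x hx)
    · exact (cg.mul (c2'.pow 2)).div (c1'.pow 3) fun x hx => pow_ne_zero _ (hne' x hx)
  have q : ∀ (u : ℂ) (U : ℝ) (k : ℕ), ∀ x ∈ Icc a b, ‖u‖ ≤ U → ‖u / (h1 x : ℂ) ^ k‖ ≤ U / L ^ k := by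
    intro u U k x hx hu
    rw [norm_div, norm_pow, norm_real, Real.norm_eq_abs]
    exact div_le_div₀ ((norm_nonneg _).trans hu) hu (by positivity)
      (pow_le_pow_left₀ hL.le (hlow x hx) k)
  have m : ∀ (u : ℂ) (t : ℝ), ‖u‖ ≤ A → |t| ≤ M → ‖u * t‖ ≤ A * M := by
    intro u t hu ht
    rw [norm_mul, norm_real, Real.norm_eq_abs]; gcongr
  have bG : ∀ x ∈ Icc a b, ‖g1 x / (h1 x * I) - g x * h2 x / ((h1 x) ^ 2 * I)‖ ≤ A / L + A * M / L ^ 2 := by
    intro x hx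
    refine (norm_sub_le _ _).trans (add_le_add ?_ ?_)
    · rw [← div_div, norm_div, norm_I, div_one]
      simpa using q _ _ 1 x hx (hA1 x hx)
    · rw [← div_div, norm_div, norm_I, div_one]
      exact q _ _ 2 x hx (m _ _ (hA0 x hx) (hM2 x hx))
  have bG1 : ∀ x ∈ Icc a b, ‖G1 x‖ ≤ A / L + 3 * (A * M / L ^ 2) + 2 * (A * M ^ 2 / L ^ 3) := by
    intro x hx
    simp only [hG1]
    rw [norm_div, norm_I, div_one]
    have t1 : ‖g2 x / h1 x‖ ≤ A / L := by simpa using q _ _ 1 x hx (hA2 x hx)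
    have t2 := q _ _ 2 x hx (m _ _ (hA1 x hx) (hM2 x hx))
    have t3 := q _ _ 2 x hx (m _ _ (hA0 x hx) (hM3 x hx))
    have t4 : ‖g x * (h2 x : ℂ) ^ 2 / (h1 x : ℂ) ^ 3‖ ≤ A * M ^ 2 / L ^ 3 := by
      apply q _ _ 3 x hx
      rw [norm_mul, norm_pow, norm_real, Real.norm_eq_abs]
      have := hA0 x hx
      have := hM2 x hx
      gcongr
    refine (norm_add_le _ _).trans ?_
    have s1 := norm_sub_le (g2 x / h1 x - 2 * (g1 x * h2 x / (h1 x) ^ 2)) (g x * h3 x / (h1 x) ^ 2)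
    have s2 := norm_sub_le (g2 x / h1 x) (2 * (g1 x * h2 x / (h1 x) ^ 2))
    rw [norm_mul] at s2 ⊢
    simp only [Complex.norm_ofNat] at s2 ⊢
    linarith
  have hV : ∫ x in a..b, ‖G1 x‖ ≤ (b - a) * (A / L + 3 * (A * M / L ^ 2) + 2 * (A * M ^ 2 / L ^ 3)) := by
    calc ∫ x in a..b, ‖G1 x‖ ≤ ∫ _ in a..b, (A / L + 3 * (A * M / L ^ 2) + 2 * (A * M ^ 2 / L ^ 3)) :=
          integral_mono_on hab (ii_of_contOn hab cG1.norm) intervalIntegrable_const bG1
      _ = _ := by simp only [intervalIntegral.integral_const, smul_eq_mul]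
  refine (first_deriv_test' hab hL hh hh1 c2 hM2 hlow dG cG1 bG hV).trans ?_
  have hd : 0 ≤ b - a := by linarith
  set d := b - a
  have e : 4 * A * (1 + d) * (1 / L ^ 2 + M / L ^ 3 + M ^ 2 / L ^ 4) -
      ((2 * (A / L + A * M / L ^ 2) + d * (A / L + 3 * (A * M / L ^ 2) + 2 * (A * M ^ 2 / L ^ 3))) / L +
        (A / L + A * M / L ^ 2) * (d * (M / L ^ 2))) =
      A * ((2 + 3 * d) / L ^ 2 + 2 * M / L ^ 3 + (4 + d) * M ^ 2 / L ^ 4) := by
    field_simp
    ring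
  have : 0 ≤ A * ((2 + 3 * d) / L ^ 2 + 2 * M / L ^ 3 + (4 + d) * M ^ 2 / L ^ 4) := by positivity
  linarith

end Crest.Agent.Osc
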