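import Crest.Agent.Lib.Osc.Deriv

/-! Fresnel integrals and the stationary phase lemma. -/

set_option autoImplicit false
open Set Complex Real intervalIntegral MeasureTheory Filter Topology

namespace Crest.Agent.Osc

/-- the Fresnel constant `∫ exp (i y²/2) dy = √(2π) e^{iπ/4}` -/
noncomputable def fres : ℂ := (2 * π * I) ^ (1 / 2 : ℂ)

theorem norm_fres : ‖fres‖ = √(2 * π) := by
  have h : (1 / 2 : ℂ) = ((1 / 2 : ℝ) : ℂ) := by push_cast; ring
  rw [fres, h, norm_cpow_real, Real.sqrt_eq_rpow]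
  congr 1
  simp [abs_of_pos pi_pos]

theorem gauss_tail {l η R T : ℝ} (hl : 0 < l) (hη : 0 < η) (hR : 0 < R) (hT : R ≤ T) :
    ‖∫ y in R..T, (rexp (-η * y ^ 2) : ℂ) * cexp ((l * y ^ 2 / 2 : ℝ) * I)‖ ≤ 5 / (l * R) := by
  have dg : ∀ y : ℝ, HasDerivAt (fun y : ℝ => rexp (-η * y ^ 2)) (rexp (-η * y ^ 2) * (-η * (2 * y))) y := by
    intro y
    have : HasDerivAt (fun y : ℝ => -η * y ^ 2) (-η * (2 * y)) y := by
      simpa using (hasDerivAt_pow 2 y).const_mul (-η)
    exact this.exp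
  have := first_deriv_test (a := R) (b := T) (L := l * R) (A := 1) (V := 1)
    (h := fun y => l * y ^ 2 / 2) (h1 := fun y => l * y) (h2 := fun _ => l)
    (g := fun y => (rexp (-η * y ^ 2) : ℂ))
    (g1 := fun y => ((rexp (-η * y ^ 2) * (-η * (2 * y)) : ℝ) : ℂ)) hT (by positivity)
    (fun y _ => by
      have := ((hasDerivAt_pow 2 y).const_mul l).div_const 2
      refine this.congr_deriv ?_
      simp; ring)
    (fun y _ => by simpa using (hasDerivAt_id y).const_mul l)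
    continuousOn_const (Or.inl fun _ _ => hl.le)
    (fun y hy => by
      rw [abs_of_nonneg (mul_nonneg hl.le (hR.le.trans hy.1))]
      exact mul_le_mul_of_nonneg_left hy.1 hl.le)
    (fun y _ => (dg y).ofReal_comp) (by fun_prop)
    (fun y _ => by
      rw [norm_real, Real.norm_eq_abs, abs_of_pos (Real.exp_pos _)]
      exact Real.exp_le_one_iff.2 (by nlinarith [sq_nonneg y]))
    (by
      have e : ∫ y in R..T, ‖((rexp (-η * y ^ 2) * (-η * (2 * y)) : ℝ) : ℂ)‖ =
          ∫ y in R..T, -(rexp (-η * y ^ 2) * (-η * (2 * y))) := by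
        apply integral_congr
        intro y hy
        rw [uIcc_of_le hT] at hy
        have hy0 : 0 ≤ y := hR.le.trans hy.1
        simp only [norm_real, Real.norm_eq_abs]
        apply abs_of_nonpos
        have := Real.exp_pos (-η * y ^ 2)
        have : 0 ≤ rexp (-η * y ^ 2) * (η * (2 * y)) := by positivity
        linarith
      rw [e, intervalIntegral.integral_neg,
        integral_eq_sub_of_hasDerivAt (fun y _ => dg y) (Continuous.intervalIntegrable (by fun_prop) _ _)]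
      have h1 := Real.exp_pos (-η * T ^ 2)
      have h2 : rexp (-η * R ^ 2) ≤ 1 := Real.exp_le_one_iff.2 (by nlinarith [sq_nonneg R])
      linarith)
  refine this.trans (le_of_eq ?_)
  norm_num

theorem fresnel_eta {l η R1 R2 : ℝ} (hl : 0 < l) (hη : 0 < η) (h1 : 0 < R1) (h2 : 0 < R2) :
    ‖(∫ y in (-R1)..R2, (rexp (-η * y ^ 2) : ℂ) * cexp ((l * y ^ 2 / 2 : ℝ) * I)) -
      (π / (η - l / 2 * I)) ^ (1 / 2 : ℂ)‖ ≤ 5 / (l * R1) + 5 / (l * R2) := by
  set F : ℝ → ℂ := fun y => (rexp (-η * y ^ 2) : ℂ) * cexp ((l * y ^ 2 / 2 : ℝ) * I) with hF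
  have hb : 0 < ((η : ℂ) - l / 2 * I).re := by simpa using hη
  have eF : F = fun y : ℝ => cexp (-((η : ℂ) - l / 2 * I) * (y : ℂ) ^ 2) := by
    funext y
    simp only [hF]
    rw [ofReal_exp, ← Complex.exp_add]
    congr 1
    push_cast; ring
  have hint : Integrable F := eF ▸ integrable_cexp_neg_mul_sq hb
  have hval : ∫ y, F y = (π / (η - l / 2 * I)) ^ (1 / 2 : ℂ) := by
    rw [eF]; exact integral_gaussian_complex hb
  have lim := intervalIntegral_tendsto_integral (a := fun T : ℝ => -T) (b := fun T : ℝ => T) (l := atTop)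
    hint tendsto_neg_atTop_atBot tendsto_id
  rw [hval] at lim
  have lim2 := ((tendsto_const_nhds (x := ∫ y in (-R1)..R2, F y)).sub lim).norm
  refine le_of_tendsto lim2 ?_
  filter_upwards [eventually_ge_atTop R1, eventually_ge_atTop R2] with T hT1 hT2
  have ii : ∀ u v, IntervalIntegrable F volume u v := fun u v => hint.intervalIntegrable
  rw [← integral_add_adjacent_intervals (ii (-T) R2) (ii R2 T),
    ← integral_add_adjacent_intervals (ii (-T) (-R1)) (ii (-R1) R2)]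
  have e : ∫ y in (-T)..(-R1), F y = ∫ y in R1..T, F y := by
    rw [← integral_comp_neg]
    simp only [hF, neg_sq]
  rw [e]
  have t1 := gauss_tail hl hη h1 hT1
  have t2 := gauss_tail hl hη h2 hT2
  calc _ = ‖-((∫ y in R1..T, F y) + ∫ y in R2..T, F y)‖ := by congr 1; ring
    _ ≤ _ := by rw [norm_neg]; exact (norm_add_le _ _).trans (add_le_add t1 t2)

theorem cpow_half_eq {l : ℝ} (hl : 0 < l) :
    ((π : ℂ) / (((0 : ℝ) : ℂ) - l / 2 * I)) ^ (1 / 2 : ℂ) = fres / √l := by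
  have hl' : (l : ℂ) ≠ 0 := by exact_mod_cast hl.ne'
  have e : (π : ℂ) / (((0 : ℝ) : ℂ) - l / 2 * I) = ((l⁻¹ : ℝ) : ℂ) * (2 * π * I) := by
    push_cast
    have : (0 : ℂ) - l / 2 * I ≠ 0 := by simp [hl']
    rw [div_eq_iff this]
    field_simp
    linear_combination (l : ℂ) * I_mul_I
  have hπ : (2 * π * I : ℂ) ≠ 0 := two_pi_I_ne_zero
  have hl2 : ((l⁻¹ : ℝ) : ℂ) ≠ 0 := by exact_mod_cast (inv_pos.2 hl).ne'
  rw [e, fres, cpow_def_of_ne_zero (mul_ne_zero hl2 hπ), cpow_def_of_ne_zero hπ,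
    log_ofReal_mul (inv_pos.2 hl) hπ, add_mul, Complex.exp_add]
  have : cexp ((Real.log l⁻¹ : ℝ) * (1 / 2)) = ((√l)⁻¹ : ℝ) := by
    rw [Real.sqrt_eq_rpow, ← Real.rpow_neg hl.le, Real.rpow_def_of_pos hl, ofReal_exp, Real.log_inv]
    congr 1
    push_cast; ring
  rw [this]
  push_cast
  ring

/-- **Fresnel integral** with an explicit tail bound. -/
theorem fresnel {l R1 R2 : ℝ} (hl : 0 < l) (h1 : 0 < R1) (h2 : 0 < R2) :
    ‖(∫ y in (-R1)..R2, cexp ((l * y ^ 2 / 2 : ℝ) * I)) - fres / √l‖ ≤ 5 / (l * R1) + 5 / (l * R2) := by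
  have c1 : Continuous fun η : ℝ =>
      ∫ y in (-R1)..R2, (rexp (-η * y ^ 2) : ℂ) * cexp ((l * y ^ 2 / 2 : ℝ) * I) := by
    apply continuous_parametric_intervalIntegral_of_continuous'
    fun_prop
  have hl' : (l : ℂ) ≠ 0 := by exact_mod_cast hl.ne'
  have c2 : ContinuousAt (fun η : ℝ => ((π : ℂ) / (η - l / 2 * I)) ^ (1 / 2 : ℂ)) 0 := by
    apply ContinuousAt.cpow _ continuousAt_const
    · right
      have e : (π : ℂ) / (((0 : ℝ) : ℂ) - l / 2 * I) = ((2 * π / l : ℝ) : ℂ) * I := by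
        push_cast
        have : (0 : ℂ) - l / 2 * I ≠ 0 := by simp [hl']
        rw [div_eq_iff this]
        field_simp
        linear_combination (l : ℂ) * I_mul_I
      rw [e]
      simp only [mul_im, ofReal_re, I_im, mul_one, ofReal_im, I_re, mul_zero, add_zero]
      positivity
    · apply ContinuousAt.div continuousAt_const (by fun_prop)
      simp [hl']
  have lim := ((c1.continuousAt (x := 0)).sub c2).norm.tendsto.mono_left
    (nhdsWithin_le_nhds (s := Ioi (0 : ℝ)))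
  simp only [Pi.sub_apply] at lim
  rw [cpow_half_eq hl] at lim
  simp only [neg_zero, zero_mul, Real.exp_zero, ofReal_one, one_mul] at lim
  refine le_of_tendsto lim ?_
  filter_upwards [self_mem_nhdsWithin] with η hη
  exact fresnel_eta hl hη h1 h2

theorem abs_sub_le_of_deriv {E : Type*} [NormedAddCommGroup E] [NormedSpace ℝ E] {a b C : ℝ}
    {f f1 : ℝ → E} (hf : ∀ x ∈ Icc a b, HasDerivAt f (f1 x) x) (hC : ∀ x ∈ Icc a b, ‖f1 x‖ ≤ C)
    {x y : ℝ} (hx : x ∈ Icc a b) (hy : y ∈ Icc a b) : ‖f y - f x‖ ≤ C * |y - x| :=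
  (convex_Icc a b).norm_image_sub_le_of_norm_hasDerivWithin_le
    (fun z hz => (hf z hz).hasDerivWithinAt) hC hx hy

theorem norm_cexp_sub_le (s t : ℝ) : ‖cexp (s * I) - cexp (t * I)‖ ≤ |s - t| := by
  have : cexp (s * I) - cexp (t * I) = cexp (t * I) * (cexp (I * (s - t : ℝ)) - 1) := by
    rw [mul_sub, ← Complex.exp_add]; push_cast; ring_nf
  rw [this, norm_mul, norm_cexp_I, one_mul]
  exact Real.norm_exp_I_mul_ofReal_sub_one_le

/-- **Stationary phase**, explicit form. -/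
theorem stationary_phase {a b x0 r L D A B V : ℝ} {h h1 h2 h3 : ℝ → ℝ} {g g1 : ℝ → ℂ}
    (hr : 0 < r) (ha : a ≤ x0 - r) (hb : x0 + r ≤ b) (hL : 0 < L)
    (hh : ∀ x ∈ Icc a b, HasDerivAt h (h1 x) x) (hh1 : ∀ x ∈ Icc a b, HasDerivAt h1 (h2 x) x)
    (hh2 : ∀ x ∈ Icc a b, HasDerivAt h2 (h3 x) x)
    (h0 : h1 x0 = 0) (hlow : ∀ x ∈ Icc a b, L ≤ h2 x) (hD : ∀ x ∈ Icc a b, |h3 x| ≤ D)
    (hg : ∀ x ∈ Icc a b, HasDerivAt g (g1 x) x) (hgc : ContinuousOn g1 (Icc a b))
    (hA : ∀ x ∈ Icc a b, ‖g x‖ ≤ A) (hB : ∀ x ∈ Icc a b, ‖g1 x‖ ≤ B) (hV : ∫ x in a..b, ‖g1 x‖ ≤ V) :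
    ‖(∫ x in a..b, g x * cexp (h x * I)) - g x0 * cexp (h x0 * I) * fres / √(h2 x0)‖ ≤
      (18 * A + 2 * V) / (L * r) + 2 * A * D * r ^ 4 + 2 * B * r ^ 2 := by
  have hx0 : x0 ∈ Icc a b := ⟨by linarith, by linarith⟩
  have c2 := contOn_of_deriv hh2
  have cF : ContinuousOn (fun x => g x * cexp (h x * I)) (Icc a b) :=
    (contOn_of_deriv hg).mul (contOn_cexp (contOn_of_deriv hh))
  have hA0 : 0 ≤ A := (norm_nonneg _).trans (hA x0 hx0)
  have hB0 : 0 ≤ B := (norm_nonneg _).trans (hB x0 hx0)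
  have hD0 : 0 ≤ D := (abs_nonneg _).trans (hD x0 hx0)
  have grow := fun x y hx hy hxy => mul_sub_le_of_deriv hh1 hlow (x := x) (y := y) hx hy hxy
  have piece : ∀ u v, a ≤ u → u ≤ v → v ≤ b → (∀ x ∈ Icc u v, L * r ≤ |h1 x|) →
      ‖∫ x in u..v, g x * cexp (h x * I)‖ ≤ (4 * A + V) / (L * r) := by
    intro u v hu huv hv H
    have sub : Icc u v ⊆ Icc a b := Icc_subset_Icc hu hv
    exact first_deriv_test huv (by positivity) (fun x hx => hh x (sub hx)) (fun x hx => hh1 x (sub hx))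
      (c2.mono sub) (Or.inl fun x hx => hL.le.trans (hlow x (sub hx))) H (fun x hx => hg x (sub hx))
      (hgc.mono sub) (fun x hx => hA x (sub hx)) (integral_norm_sub_le hu huv hv hgc hV)
  have p1 := piece a (x0 - r) le_rfl ha (by linarith) (by
    intro x hx
    have := grow x x0 ⟨hx.1, by linarith [hx.2]⟩ hx0 (by linarith [hx.2])
    have h' : L * r ≤ L * (x0 - x) := mul_le_mul_of_nonneg_left (by linarith [hx.2]) hL.le
    exact le_abs.2 (Or.inr (by linarith)))
  have p3 := piece (x0 + r) b (by linarith) hb le_rfl (by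
    intro x hx
    have := grow x0 x hx0 ⟨by linarith [hx.1], hx.2⟩ (by linarith [hx.1])
    have h' : L * r ≤ L * (x - x0) := mul_le_mul_of_nonneg_left (by linarith [hx.1]) hL.le
    exact le_abs.2 (Or.inl (by linarith)))
  -- near zone
  set l := h2 x0 with hl
  have hl0 : L ≤ l := hlow x0 hx0
  have hlp : 0 < l := hL.trans_le hl0
  have sub : Icc (x0 - r) (x0 + r) ⊆ Icc a b := Icc_subset_Icc ha hb
  have hx0' : x0 ∈ Icc (x0 - r) (x0 + r) := ⟨by linarith, by linarith⟩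
  have habs : ∀ x ∈ Icc (x0 - r) (x0 + r), |x - x0| ≤ r := fun x hx =>
    abs_le.2 ⟨by linarith [hx.1], by linarith [hx.2]⟩
  have t2 : ∀ x ∈ Icc (x0 - r) (x0 + r), ‖h2 x - l‖ ≤ D * r := by
    intro x hx
    refine (abs_sub_le_of_deriv hh2 hD hx0 (sub hx)).trans ?_
    exact mul_le_mul_of_nonneg_left (habs x hx) hD0
  have t1 : ∀ x ∈ Icc (x0 - r) (x0 + r), ‖h1 x - l * (x - x0)‖ ≤ D * r * r := by
    intro x hx
    have := abs_sub_le_of_deriv (f := fun x => h1 x - l * (x - x0)) (f1 := fun x => h2 x - l)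
      (fun y hy => by
        simpa using (hh1 y (sub hy)).fun_sub (((hasDerivAt_id y).sub_const x0).const_mul l)) t2 hx0' hx
    simp only [h0, sub_self, mul_zero, sub_zero] at this
    exact this.trans (mul_le_mul_of_nonneg_left (habs x hx) (by positivity))
  have t0 : ∀ x ∈ Icc (x0 - r) (x0 + r), |h x - (h x0 + l * (x - x0) ^ 2 / 2)| ≤ D * r * r * r := by
    intro x hx
    have := abs_sub_le_of_deriv (f := fun x => h x - l * (x - x0) ^ 2 / 2)
      (f1 := fun x => h1 x - l * (x - x0))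
      (fun y hy => by
        refine ((hh y (sub hy)).fun_sub
          (((((hasDerivAt_id y).sub_const x0).fun_pow 2).const_mul l).div_const 2)).congr_deriv ?_
        simp; ring) t1 hx0' hx
    refine le_trans (le_of_eq ?_) (this.trans (mul_le_mul_of_nonneg_left (habs x hx) (by positivity)))
    rw [Real.norm_eq_abs]; congr 1; ring
  have tg : ∀ x ∈ Icc (x0 - r) (x0 + r), ‖g x - g x0‖ ≤ B * r := by
    intro x hx
    refine (abs_sub_le_of_deriv hg hB hx0 (sub hx)).trans ?_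
    exact mul_le_mul_of_nonneg_left (habs x hx) hB0
  have hrr : x0 - r ≤ x0 + r := by linarith
  have i1 := ii_of_contOn ha (cF.mono (Icc_subset_Icc_right (by linarith)))
  have i2 := ii_of_contOn hrr (cF.mono sub)
  have i3 := ii_of_contOn hb (cF.mono (Icc_subset_Icc_left (by linarith)))
  set Q : ℝ → ℂ := fun x => g x0 * cexp (h x0 * I) * cexp ((l * (x - x0) ^ 2 / 2 : ℝ) * I) with hQ
  have iQ : IntervalIntegrable Q volume (x0 - r) (x0 + r) :=
    Continuous.intervalIntegrable (by simp only [hQ]; fun_prop) _ _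
  have n1 : ‖(∫ x in (x0 - r)..(x0 + r), g x * cexp (h x * I)) - ∫ x in (x0 - r)..(x0 + r), Q x‖ ≤
      (B * r + A * (D * r * r * r)) * (2 * r) := by
    rw [← integral_sub i2 iQ]
    refine (intervalIntegral.norm_integral_le_of_norm_le_const (C := B * r + A * (D * r * r * r)) ?_).trans (le_of_eq ?_)
    · intro x hx
      rw [uIoc_of_le hrr] at hx
      have hx' := Ioc_subset_Icc_self hx
      have e : g x * cexp (h x * I) - Q x = (g x - g x0) * cexp (h x * I) +
          g x0 * (cexp (h x * I) - cexp ((h x0 + l * (x - x0) ^ 2 / 2 : ℝ) * I)) := by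
        simp only [hQ]
        rw [mul_assoc (g x0), ← Complex.exp_add]
        push_cast
        ring_nf
      rw [e]
      refine (norm_add_le _ _).trans (add_le_add ?_ ?_)
      · rw [norm_mul, norm_cexp_I, mul_one]; exact tg x hx'
      · rw [norm_mul]
        exact mul_le_mul (hA x0 hx0) ((norm_cexp_sub_le _ _).trans (t0 x hx')) (norm_nonneg _) hA0
    · rw [abs_of_nonneg (by linarith)]; ring
  have n2 : ‖(∫ x in (x0 - r)..(x0 + r), Q x) - g x0 * cexp (h x0 * I) * fres / √l‖ ≤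
      A * (10 / (L * r)) := by
    have e : ∫ x in (x0 - r)..(x0 + r), Q x =
        g x0 * cexp (h x0 * I) * ∫ y in (-r)..r, cexp ((l * y ^ 2 / 2 : ℝ) * I) := by
      simp only [hQ]
      rw [intervalIntegral.integral_const_mul,
        integral_comp_sub_right (fun y => cexp ((l * y ^ 2 / 2 : ℝ) * I)) x0]
      congr 2 <;> ring
    rw [e, mul_div_assoc, ← mul_sub, norm_mul, norm_mul, norm_cexp_I, mul_one]
    refine mul_le_mul (hA x0 hx0) ((fresnel hlp hr hr).trans ?_) (norm_nonneg _) hA0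
    have : 5 / (l * r) ≤ 5 / (L * r) := by gcongr
    have e2 : 10 / (L * r) = 5 / (L * r) + 5 / (L * r) := by ring
    linarith
  rw [← integral_add_adjacent_intervals (i1.trans i2) i3, ← integral_add_adjacent_intervals i1 i2]
  set X1 := ∫ x in a..(x0 - r), g x * cexp (h x * I)
  set X2 := ∫ x in (x0 - r)..(x0 + r), g x * cexp (h x * I)
  set X3 := ∫ x in (x0 + r)..b, g x * cexp (h x * I)
  set Y := ∫ x in (x0 - r)..(x0 + r), Q x
  set Z := g x0 * cexp (h x0 * I) * fres / √l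
  have e : X1 + X2 + X3 - Z = X1 + X3 + ((X2 - Y) + (Y - Z)) := by ring
  rw [e]
  have s1 := norm_add₃_le (a := X1) (b := X3) (c := (X2 - Y) + (Y - Z))
  have s2 := norm_add_le (X2 - Y) (Y - Z)
  have e3 : (18 * A + 2 * V) / (L * r) + 2 * A * D * r ^ 4 + 2 * B * r ^ 2 =
      (4 * A + V) / (L * r) + (4 * A + V) / (L * r) + (B * r + A * (D * r * r * r)) * (2 * r) +
        A * (10 / (L * r)) := by ring
  linarith

/-- **Stationary phase**, uniform `o(N^{-1/2})` form (the phase `h` includes the factor `N`). -/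
theorem stationary_phase_unif {c D x1 ε : ℝ} (hc : 0 < c) (hx : 0 < x1) (hε : 0 < ε) :
    ∃ N0 : ℝ, ∀ N : ℝ, N0 ≤ N → ∀ (a b x0 : ℝ) (h h1 h2 h3 : ℝ → ℝ), a ≤ x0 - x1 → x0 + x1 ≤ b →
      (∀ x ∈ Icc a b, HasDerivAt h (h1 x) x) → (∀ x ∈ Icc a b, HasDerivAt h1 (h2 x) x) →
      (∀ x ∈ Icc a b, HasDerivAt h2 (h3 x) x) → h1 x0 = 0 →
      (∀ x ∈ Icc a b, c * N ≤ h2 x) → (∀ x ∈ Icc a b, |h3 x| ≤ D * N) →
      ‖(∫ x in a..b, cexp (h x * I)) - cexp (h x0 * I) * fres / √(h2 x0)‖ ≤ ε / √N := by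
  -- `r = K / √N` with `18 / (c K) ≤ ε / 2`
  set K := 36 / (c * ε) with hK
  have hK0 : 0 < K := by positivity
  refine ⟨max 1 (max ((K / x1) ^ 2) ((4 * |D| * K ^ 4 / ε) ^ 2)), ?_⟩
  intro N hN a b x0 h h1 h2 h3 ha hb hh hh1 hh2 h0 hlow hD
  have hN1 : 1 ≤ N := (le_max_left _ _).trans hN
  have hN2 : (K / x1) ^ 2 ≤ N := ((le_max_left _ _).trans (le_max_right _ _)).trans hN
  have hN3 : (4 * |D| * K ^ 4 / ε) ^ 2 ≤ N := ((le_max_right _ _).trans (le_max_right _ _)).trans hN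
  have hN0 : 0 < N := by linarith
  set s := √N with hs
  have hs0 : 0 < s := Real.sqrt_pos.2 hN0
  have hss : N = s ^ 2 := (Real.sq_sqrt hN0.le).symm
  have k1 : K / x1 ≤ s := Real.le_sqrt_of_sq_le hN2
  have k2 : 4 * |D| * K ^ 4 / ε ≤ s := Real.le_sqrt_of_sq_le hN3
  have hr : K / s ≤ x1 := by
    rw [div_le_iff₀ hs0]; rw [div_le_iff₀ hx] at k1; linarith
  have := stationary_phase (r := K / s) (L := c * N) (D := |D| * N) (A := 1) (B := 0) (V := 0)
    (g := fun _ => 1) (g1 := fun _ => 0) (by positivity) (by linarith : a ≤ x0 - K / s)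
    (by linarith : x0 + K / s ≤ b) (by positivity) hh hh1 hh2 h0 hlow
    (fun x hx => (hD x hx).trans (mul_le_mul_of_nonneg_right (le_abs_self D) hN0.le))
    (fun x _ => hasDerivAt_const x _) continuousOn_const (by simp) (by simp) (by simp)
  simp only [one_mul] at this
  refine this.trans ?_
  have e1 : (18 * 1 + 2 * 0) / (c * N * (K / s)) = ε / 2 / s := by
    rw [hss, hK]; field_simp; norm_num
  have e2 : 2 * 1 * (|D| * N) * (K / s) ^ 4 ≤ ε / 2 / s := by
    have : 2 * 1 * (|D| * N) * (K / s) ^ 4 = (4 * |D| * K ^ 4 / ε) / s * (ε / 2 / s) := by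
      rw [hss]; field_simp; ring
    rw [this]
    refine mul_le_of_le_one_left (by positivity) ?_
    rwa [div_le_one hs0]
  have e3 : ε / s = ε / 2 / s + ε / 2 / s := by ring
  rw [e1]
  linarith

end Crest.Agent.Osc
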